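import Mathlib

namespace Vale.Agent.Results.P228.AcuteActions

open Topology Filter

/-- A continuous action of the `p`-adic integers on a compact space with Euclidean charts in
which, near zero, no chord is turned by more than a right angle, is trivial on some `p ^ N`. -/
theorem result : ∀ (p : ℕ) [Fact p.Prime] (M : Type) [TopologicalSpace M] [CompactSpace M]
    (act : ℤ_[p] → M → M), Continuous (Function.uncurry act) → (∀ y, act 0 y = y) →
    (∀ a b y, act (a + b) y = act a (act b y)) →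
    (∀ x : M, ∃ (n : ℕ) (U : Set ℤ_[p]) (V : Set M) (φ : M → EuclideanSpace ℝ (Fin n)),
      U ∈ 𝓝 0 ∧ IsOpen V ∧ x ∈ V ∧ Set.InjOn φ V ∧ ContinuousOn φ V ∧
      ∀ k ∈ U, ∀ y ∈ V, ∀ z ∈ V, act k y ∈ V → act k z ∈ V →
        0 ≤ inner ℝ (φ (act k z) - φ (act k y)) (φ z - φ y)) →
    ∃ N : ℕ, ∀ (a : ℤ_[p]) (y : M), act ((p : ℤ_[p]) ^ N * a) y = y := by
  intro p _ M _ _ act hc h0 hadd hch
  have hp1 : (1 : ℝ) < p := by exact_mod_cast (Fact.out : p.Prime).one_lt
  have hsmall : ∀ U ∈ 𝓝 (0 : ℤ_[p]), ∃ N : ℕ, ∀ a, (p : ℤ_[p]) ^ N * a ∈ U := by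
    intro U hU
    obtain ⟨ε, hε, hball⟩ := Metric.mem_nhds_iff.1 hU
    obtain ⟨N, hN⟩ := exists_pow_lt_of_lt_one hε (inv_lt_one_of_one_lt₀ hp1)
    refine ⟨N, fun a => hball ?_⟩
    rw [Metric.mem_ball, dist_zero_right, norm_mul, norm_pow, PadicInt.norm_p]
    refine lt_of_le_of_lt ?_ hN
    exact mul_le_of_le_one_right (pow_nonneg (by positivity) _) (PadicInt.norm_le_one a)
  have hloc : ∀ x : M, ∃ (N : ℕ) (W : Set M), W ∈ 𝓝 x ∧
      ∀ y ∈ W, ∀ a, act ((p : ℤ_[p]) ^ N * a) y = y := by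
    intro x
    obtain ⟨n, U, V, φ, hU, hV, hxV, hinj, hφ, hac⟩ := hch x
    have hmem : (Function.uncurry act) ⁻¹' V ∈ 𝓝 ((0 : ℤ_[p]), x) :=
      hc.continuousAt.preimage_mem_nhds (hV.mem_nhds (by simpa [h0] using hxV))
    obtain ⟨U', hU', W, hW, hsub⟩ := mem_nhds_prod_iff.1 hmem
    obtain ⟨N, hN⟩ := hsmall (U ∩ U') (inter_mem hU hU')
    refine ⟨N, W, hW, fun y hy a => ?_⟩
    have hin : ∀ b, act ((p : ℤ_[p]) ^ N * b) y ∈ V := fun b =>
      hsub (Set.mk_mem_prod (hN b).2 hy)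
    have hyV : y ∈ V := by simpa [h0] using hin 0
    set d := φ (act ((p : ℤ_[p]) ^ N * a) y) - φ y
    set g : ℤ_[p] → ℝ := fun b => inner ℝ (φ (act ((p : ℤ_[p]) ^ N * b) y)) d with hg
    have hstep : ∀ b, g b ≤ g (b + a) := by
      intro b
      have he : act ((p : ℤ_[p]) ^ N * b) (act ((p : ℤ_[p]) ^ N * a) y) =
          act ((p : ℤ_[p]) ^ N * (b + a)) y := by rw [← hadd, mul_add]
      have h := hac _ (hN b).1 y hyV _ (hin a) (hin b) (he ▸ hin (b + a))
      rw [he, inner_sub_left] at h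
      simp only [hg]
      linarith
    have hge : ∀ j : ℕ, g a ≤ g (((j + 1 : ℕ) : ℤ_[p]) * a) := by
      intro j
      induction j with
      | zero => simp
      | succ j ih =>
        refine ih.trans ((hstep _).trans_eq ?_)
        congr 1
        push_cast
        ring
    have hlim : Tendsto (fun i : ℕ => g ((p : ℤ_[p]) ^ i * a)) atTop (𝓝 (g 0)) := by
      have hgc : Continuous g := by
        refine Continuous.inner ?_ continuous_const
        exact hφ.comp_continuous (hc.comp₂ (continuous_const.mul continuous_id) continuous_const)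
          hin
      have ht : Tendsto (fun i : ℕ => (p : ℤ_[p]) ^ i * a) atTop (𝓝 0) := by
        have := (tendsto_pow_atTop_nhds_zero_of_norm_lt_one
          (x := (p : ℤ_[p])) (by rw [PadicInt.norm_p]; exact inv_lt_one_of_one_lt₀ hp1)).mul_const a
        simpa using this
      exact (hgc.tendsto 0).comp ht
    have hle : g a ≤ g 0 := ge_of_tendsto' hlim fun i => by
      obtain ⟨j, hj⟩ : ∃ j, p ^ i = j + 1 :=
        ⟨p ^ i - 1, (Nat.succ_pred_eq_of_pos (pow_pos (Fact.out : p.Prime).pos i)).symm⟩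
      have := hge j
      rwa [← hj, Nat.cast_pow] at this
    have hd : inner ℝ d d ≤ 0 := by
      have : g a - g 0 = inner ℝ d d := by
        simp only [hg, mul_zero, h0, ← inner_sub_left]
        rfl
      linarith
    exact hinj (hin a) hyV (sub_eq_zero.1 (real_inner_self_nonpos.1 hd))
  choose N W hW hfix using hloc
  obtain ⟨t, -, ht⟩ := isCompact_univ.elim_nhds_subcover W fun x _ => hW x
  refine ⟨t.sup N, fun a y => ?_⟩
  obtain ⟨x, hxt, hx⟩ : ∃ x ∈ t, y ∈ W x := by simpa using ht (Set.mem_univ y)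
  obtain ⟨e, he⟩ := Nat.exists_eq_add_of_le (Finset.le_sup (f := N) hxt)
  rw [he, pow_add, mul_assoc]
  exact hfix x y hx _

end Vale.Agent.Results.P228.AcuteActions
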